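import Vale.Agent.P171.Bdl.B1

namespace Vale.Agent.Results.P171.Main

open Vale.Agent.P171

/-- There is a stable, tempered, Borel measurable and locally bounded radial pair potential on
`(0, ∞)` whose continuum gas in three dimensions has a phase transition: for some `β > 0` the
thermodynamic limit of the pressure exists for every activity `z > 0` and is not differentiable
in `z` at some point. -/
theorem result : ∃ φ : ℝ → ℝ,
    IsPotential φ ∧ Stable φ ∧ Tempered φ ∧ HasPhaseTransition φ :=
  Vale.Agent.P171.main

end Vale.Agent.Results.P171.Main
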