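import Vale.Agent.P171.Defs
import Vale.Agent.P171.Bdl.B1

namespace Vale.Agent.Results.P171.Strong

open Vale.Agent.P171

/-- There is a continuous bounded radial pair potential on three-dimensional space, bounded in
absolute value by `C r^(-3-ε)`, attractive beyond distance three, stable and tempered, with a
phase transition. -/
theorem result : ∃ φ : ℝ → ℝ, Continuous φ ∧ (∃ M : ℝ, ∀ r : ℝ, |φ r| ≤ M) ∧
    (∃ C ε : ℝ, 0 < C ∧ 0 < ε ∧ ∀ r : ℝ, 0 < r → |φ r| ≤ C * r ^ (-(3 + ε))) ∧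
    (∀ r : ℝ, 3 ≤ r → φ r ≤ 0) ∧
    IsPotential φ ∧ Stable φ ∧ Tempered φ ∧ HasPhaseTransition φ :=
  Vale.Agent.P171.main3

end Vale.Agent.Results.P171.Strong
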